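import Vale.Agent.P033.Main

namespace Vale.Agent.Results.P033.Circulant

/-- The circulant Hadamard conjecture. Indices are in `Fin n`, whose subtraction is
subtraction modulo `n`. -/
theorem result (n : ℕ) (hn : 1 ≤ n) :
    (∃ H : Matrix (Fin n) (Fin n) ℝ,
      (∀ i j, H i j = 1 ∨ H i j = -1) ∧
      H * H.transpose = (n : ℝ) • (1 : Matrix (Fin n) (Fin n) ℝ) ∧
      ∃ h : Fin n → ℝ, (∀ k, h k = 1 ∨ h k = -1) ∧ ∀ i j : Fin n, H i j = h (j - i)) ↔
    (n = 1 ∨ n = 4) := by
  constructor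
  · rintro ⟨H, -, hO, h, hs, hH⟩
    exact Vale.Agent.P033.circulant_order hn h hs H hH hO
  · rintro (rfl | rfl)
    · refine ⟨!![1], fun i j => ?_, ?_, fun _ => 1, by simp, fun i j => ?_⟩
      · fin_cases i; fin_cases j; simp
      · ext i j
        fin_cases i; fin_cases j; simp [Matrix.mul_apply]
      · fin_cases i; fin_cases j; rfl
    · refine ⟨!![1, 1, 1, -1; -1, 1, 1, 1; 1, -1, 1, 1; 1, 1, -1, 1], fun i j => ?_, ?_,
        ![1, 1, 1, -1], fun k => ?_, fun i j => ?_⟩
      · fin_cases i <;> fin_cases j <;> simp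
      · ext i j
        fin_cases i <;> fin_cases j <;> simp [Matrix.mul_apply, Fin.sum_univ_four] <;> norm_num
      · fin_cases k <;> simp
      · fin_cases i <;> fin_cases j <;> rfl

end Vale.Agent.Results.P033.Circulant
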